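import Vale.Agent.P050.TDefs
import Mathlib

/-!
Tensor products of targets.
-/

namespace Vale.Agent.P050.H753

open Vale.Agent.P050

universe u v

/-- The tensor product (categorical product) of two graphs. -/
def tensorGraph {U₁ : Type u} {U₂ : Type v} (G₁ : SimpleGraph U₁) (G₂ : SimpleGraph U₂) :
    SimpleGraph (U₁ × U₂) where
  Adj x y := G₁.Adj x.1 y.1 ∧ G₂.Adj x.2 y.2
  symm := ⟨fun _ _ h => ⟨h.1.symm, h.2.symm⟩⟩
  loopless := ⟨fun _ h => h.1.ne rfl⟩

variable {U₁ : Type u} {U₂ : Type v} (G₁ : SimpleGraph U₁) (G₂ : SimpleGraph U₂)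

/-- Homomorphisms to a tensor product are pairs of homomorphisms. -/
def homEquiv {V : Type*} (H : SimpleGraph V) :
    (H →g tensorGraph G₁ G₂) ≃ (H →g G₁) × (H →g G₂) where
  toFun f := (⟨fun v => (f v).1, fun h => (f.map_rel h).1⟩, ⟨fun v => (f v).2, fun h => (f.map_rel h).2⟩)
  invFun p := ⟨fun v => (p.1 v, p.2 v), fun h => ⟨p.1.map_rel h, p.2.map_rel h⟩⟩
  left_inv f := by ext v <;> rfl
  right_inv p := by
    refine Prod.ext ?_ ?_ <;> (ext v; rfl)

/-- Darts of a tensor product are pairs of darts. -/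
def dartEquiv : (tensorGraph G₁ G₂).Dart ≃ G₁.Dart × G₂.Dart where
  toFun d := (⟨(d.fst.1, d.snd.1), d.adj.1⟩, ⟨(d.fst.2, d.snd.2), d.adj.2⟩)
  invFun p := ⟨((p.1.fst, p.2.fst), (p.1.snd, p.2.snd)), ⟨p.1.adj, p.2.adj⟩⟩
  left_inv d := rfl
  right_inv p := rfl

theorem card_dart {U : Type*} [Finite U] (G : SimpleGraph U) :
    Nat.card G.Dart = 2 * Nat.card G.edgeSet := by
  classical
  have := Fintype.ofFinite U
  have h := G.dart_card_eq_twice_card_edges
  rw [Nat.card_eq_fintype_card, h, Nat.card_eq_fintype_card, SimpleGraph.edgeFinset_card]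

theorem homDensity_tensor {V : Type*} (H : SimpleGraph V) :
    homDensity H (tensorGraph G₁ G₂) = homDensity H G₁ * homDensity H G₂ := by
  unfold homDensity
  rw [Nat.card_congr (homEquiv G₁ G₂ H), Nat.card_prod, Nat.card_prod, Nat.cast_mul, Nat.cast_mul,
    mul_pow, mul_div_mul_comm]

theorem edgeDensity_tensor [Finite U₁] [Finite U₂] :
    edgeDensity (tensorGraph G₁ G₂) = edgeDensity G₁ * edgeDensity G₂ := by
  have h : (2 * (Nat.card (tensorGraph G₁ G₂).edgeSet : ℝ)) =
      (2 * (Nat.card G₁.edgeSet : ℝ)) * (2 * (Nat.card G₂.edgeSet : ℝ)) := by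
    have h1 := card_dart (tensorGraph G₁ G₂)
    rw [Nat.card_congr (dartEquiv G₁ G₂), Nat.card_prod, card_dart, card_dart] at h1
    exact_mod_cast h1.symm
  unfold edgeDensity
  rw [h, Nat.card_prod, Nat.cast_mul, mul_pow, mul_div_mul_comm]

theorem homDensity_nonneg {V : Type*} {U : Type*} (H : SimpleGraph V) (G : SimpleGraph U) :
    0 ≤ homDensity H G := by
  unfold homDensity; positivity

theorem edgeDensity_nonneg {U : Type*} (G : SimpleGraph U) : 0 ≤ edgeDensity G := by
  unfold edgeDensity; positivity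

theorem sidorenko_tensor [Finite U₁] [Finite U₂] (h1 : SidorenkoAgainst G₁)
    (h2 : SidorenkoAgainst G₂) : SidorenkoAgainst (tensorGraph G₁ G₂) := by
  intro V _ H hH
  rw [homDensity_tensor, edgeDensity_tensor, mul_pow]
  exact mul_le_mul (h1 V H hH) (h2 V H hH) (pow_nonneg (edgeDensity_nonneg _) _)
    (homDensity_nonneg _ _)

theorem edgewise_tensor [Finite U₁] [Finite U₂] (h1 : EdgewiseSidorenkoAgainst G₁)
    (h2 : EdgewiseSidorenkoAgainst G₂) : EdgewiseSidorenkoAgainst (tensorGraph G₁ G₂) := by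
  intro V _ H H' hH hle
  rw [homDensity_tensor, homDensity_tensor, edgeDensity_tensor, mul_pow]
  have e : homDensity H G₁ * homDensity H G₂ *
      (edgeDensity G₁ ^ (Nat.card H'.edgeSet - Nat.card H.edgeSet) *
        edgeDensity G₂ ^ (Nat.card H'.edgeSet - Nat.card H.edgeSet)) =
      (homDensity H G₁ * edgeDensity G₁ ^ (Nat.card H'.edgeSet - Nat.card H.edgeSet)) *
      (homDensity H G₂ * edgeDensity G₂ ^ (Nat.card H'.edgeSet - Nat.card H.edgeSet)) := by ring
  rw [e]
  exact mul_le_mul (h1 V H H' hH hle) (h2 V H H' hH hle)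
    (mul_nonneg (homDensity_nonneg _ _) (pow_nonneg (edgeDensity_nonneg _) _))
    (homDensity_nonneg _ _)

end Vale.Agent.P050.H753
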