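import Vale.Agent.P050.Bdl.B1
import Vale.Agent.P050.H392.Kernel
import Vale.Agent.P050.H753.Tensor

/-!
The groups of results, as named statements.
-/

open MeasureTheory

namespace Vale.Agent.P050.H753

open Vale.Agent.P050 Vale.Agent.P050.H392

/-- The homomorphism density `t(H, W) = ∫ ∏_{uv ∈ E(H)} W(x_u, x_v) dx` of the graph `H` in the
symmetric kernel `W` on the measure space `(Ω, μ)`; the integral is over `Ω ^ V(H)`. -/
noncomputable def kernelDensity {V Ω : Type} [Fintype V] [DecidableEq V] [MeasurableSpace Ω]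
    (μ : Measure Ω) (H : SimpleGraph V) [DecidableRel H.Adj]
    (W : Ω → Ω → ℝ) (hW : ∀ s t, W s t = W t s) : ℝ :=
  ∫ x : V → Ω, ∏ e ∈ H.edgeFinset,
    Sym2.lift ⟨fun u v => W (x u) (x v), fun u v => hW (x u) (x v)⟩ e
    ∂(Measure.pi fun _ : V => μ)

/-- `t(F, G)` for the graph with vertex set `V` and edge set `F`: the number of maps from `V` to
the vertices of `G` sending every edge in `F` to an edge of `G`, divided by `|V(G)| ^ |V|`. -/
noncomputable def subgraphDensity {V X : Type} [Fintype V] [DecidableEq V] [Fintype X]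
    (F : Finset (Sym2 V)) (G : SimpleGraph X) [DecidableRel G.Adj] : ℝ :=
  ((Finset.univ.filter (fun φ : V → X => ∀ e ∈ F, e.map φ ∈ G.edgeSet)).card : ℝ) /
    (Fintype.card X : ℝ) ^ Fintype.card V

/-- For every bipartite `H`: (1) kernels within `p / (24 Δ)` of their mean `p`; (2) the averaged
inequality over random subgraphs of `H`, for all graphs; (3) targets with a monotone system of
reflections, in particular generalised Kneser graphs, graphs on words, circular graphs, in the edge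
by edge form. -/
def LocalAndTargets : Prop :=
    (∀ (V Ω : Type) [Fintype V] [DecidableEq V] [MeasurableSpace Ω]
      (H : SimpleGraph V) [DecidableRel H.Adj] (μ : Measure Ω) [IsProbabilityMeasure μ]
      (W : Ω → Ω → ℝ) (hW : ∀ s t, W s t = W t s) (p : ℝ),
      H.IsBipartite → Measurable (Function.uncurry W) → 0 < p →
      ∫ s, ∫ t, W s t ∂μ ∂μ = p →
      (∀ᵐ z ∂(μ.prod μ), |W z.1 z.2 - p| ≤ p / (24 * H.maxDegree)) →
      p ^ H.edgeFinset.card ≤ kernelDensity μ H W hW) ∧
    (∀ (V X : Type) [Fintype V] [DecidableEq V] [Fintype X] [Nonempty X]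
      (H : SimpleGraph V) [DecidableRel H.Adj] (G : SimpleGraph X) [DecidableRel G.Adj] (θ : ℝ),
      H.IsBipartite → 0 ≤ θ → θ * (24 * H.maxDegree + 1) ≤ 1 →
      (1 - θ + θ * (2 * G.edgeFinset.card / (Fintype.card X : ℝ) ^ 2)) ^ H.edgeFinset.card ≤
        ∑ F ∈ H.edgeFinset.powerset,
          θ ^ F.card * (1 - θ) ^ (H.edgeFinset.card - F.card) * subgraphDensity F G) ∧
    (∀ (U ι : Type) [Finite U] [Nonempty U] (G : SimpleGraph U) (s : ι → U → U)
      (P Q : ι → Set U), MonotoneReflections G s P Q →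
        EdgewiseSidorenkoAgainst G ∧ SidorenkoAgainst G) ∧
    (∀ n k t : ℕ, k ≤ n →
      EdgewiseSidorenkoAgainst (kneserGraph n k t) ∧ SidorenkoAgainst (kneserGraph n k t)) ∧
    (∀ (n q : ℕ) (S : Set (Finset (Fin n))), 0 < q → IsUpperSet S →
      EdgewiseSidorenkoAgainst (hammingGraph n q S) ∧ SidorenkoAgainst (hammingGraph n q S)) ∧
    (∀ n r : ℕ, 0 < n →
      EdgewiseSidorenkoAgainst (circularGraph n r) ∧ SidorenkoAgainst (circularGraph n r))

theorem localAndTargets : LocalAndTargets := by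
  refine ⟨?_, ?_, ?_, ?_, ?_, ?_⟩
  · intro V Ω _ _ _ H _ μ _ W hW p hH hmeas hp hint hclose
    exact Vale.Agent.P050.local_sidorenko μ H hH W hW hmeas hp hint hclose
  · intro V X _ _ _ _ H _ G _ θ hH hθ0 hθ
    exact Vale.Agent.P050.average_sidorenko H hH G θ hθ0 hθ
  · intro U ι _ _ G s P Q R
    have h := edgewise_of_monotoneReflections G s P Q R
    exact ⟨h, sidorenko_of_edgewise h⟩
  · intro n k t hk
    have h := edgewise_kneser n k t hk
    have hne : Nonempty {s : Finset (Fin n) // s.card = k} := by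
      obtain ⟨s, hs⟩ := Finset.exists_subset_card_eq (s := (Finset.univ : Finset (Fin n)))
        (n := k) (by simpa using hk)
      exact ⟨⟨s, hs.2⟩⟩
    exact ⟨h, sidorenko_of_edgewise h⟩
  · intro n q S hq hS
    have h := edgewise_hamming n q hq S hS
    have hne : Nonempty (Fin n → Fin q) := ⟨fun _ => ⟨0, hq⟩⟩
    exact ⟨h, sidorenko_of_edgewise h⟩
  · intro n r hn
    have h := edgewise_circular n r hn
    have hne : Nonempty (Fin n) := ⟨⟨0, hn⟩⟩
    exact ⟨h, sidorenko_of_edgewise h⟩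

theorem density_eq {V Ω : Type} [Fintype V] [DecidableEq V] [MeasurableSpace Ω]
    (μ : Measure Ω) (H : SimpleGraph V) [DecidableRel H.Adj]
    (W : Ω → Ω → ℝ) (hW : ∀ s t, W s t = W t s) {o : V → ℕ}
    (ho : ∀ u v, H.Adj u v → o u ≠ o v) :
    kernelDensity μ H W hW = dens μ (orient H o) W := by
  unfold kernelDensity dens
  congr 1
  funext x
  rw [prod_orient H ho]
  rfl

theorem hom_sum {V U : Type} [Fintype V] [DecidableEq V] [Fintype U] [DecidableEq U]
    (H : SimpleGraph V) [DecidableRel H.Adj] (G : SimpleGraph U) [DecidableRel G.Adj]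
    {o : V → ℕ} (ho : ∀ u v, H.Adj u v → o u ≠ o v) {N : ℕ} (z : Fin N ≃ U) :
    (∑ φ : V → Fin N, ∏ e ∈ orient H o,
      (if G.Adj (z (φ e.1)) (z (φ e.2)) then (1 : ℝ) else 0)) = (Nat.card (H →g G) : ℝ) := by
  classical
  have h1 : (∑ φ : V → Fin N, ∏ e ∈ orient H o,
      (if G.Adj (z (φ e.1)) (z (φ e.2)) then (1 : ℝ) else 0)) =
      ∑ ψ : V → U, ∏ e ∈ orient H o, (if G.Adj (ψ e.1) (ψ e.2) then (1 : ℝ) else 0) :=
    Equiv.sum_comp (Equiv.piCongrRight fun _ : V => z)
      (fun ψ : V → U => ∏ e ∈ orient H o, (if G.Adj (ψ e.1) (ψ e.2) then (1 : ℝ) else 0))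
  rw [h1]
  have h2 : ∀ ψ : V → U, (∏ e ∈ orient H o, (if G.Adj (ψ e.1) (ψ e.2) then (1 : ℝ) else 0)) =
      if ∀ u v, H.Adj u v → G.Adj (ψ u) (ψ v) then 1 else 0 := by
    intro ψ
    rw [Finset.prod_ite_zero]
    simp only [Finset.prod_const_one]
    congr 1
    simp only [orient, Finset.mem_filter, Finset.mem_univ, true_and, Prod.forall, eq_iff_iff]
    constructor
    · intro h u v huv
      rcases lt_or_gt_of_ne (ho u v huv) with h3 | h3
      · exact h u v ⟨huv, h3⟩
      · exact (h v u ⟨huv.symm, h3⟩).symm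
    · intro h u v huv
      exact h u v huv.1
  simp only [h2]
  rw [Finset.sum_boole]
  have h3 : Nat.card (H →g G) =
      (Finset.univ.filter fun ψ : V → U => ∀ u v, H.Adj u v → G.Adj (ψ u) (ψ v)).card := by
    rw [← Fintype.card_subtype, Nat.card_eq_fintype_card.symm]
    refine Nat.card_congr ⟨fun f => ⟨f, fun u v h => f.map_rel h⟩,
      fun ψ => ⟨ψ.1, fun {u v} h => ψ.2 u v h⟩, fun f => ?_, fun ψ => ?_⟩
    · ext; rfl
    · rfl
  rw [h3]

/-- (1) Kernels of rank at most two and kernels with nonnegative ordered `2 × 2` minors, for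
bipartite `H`; (2) for every `H`, if the ordering of rows and columns is the same or
`W(x,y) = f(x) f(y) + g(x) g(y)`; (3) the two-sided form of (1); (4) the form for finite graphs. -/
def TotallyPositive : Prop :=
    (∀ (V Ω : Type) [Fintype V] [DecidableEq V] [MeasurableSpace Ω]
      (H : SimpleGraph V) [DecidableRel H.Adj] (μ : Measure Ω) [IsProbabilityMeasure μ]
      (W : Ω → Ω → ℝ) (hW : ∀ s t, W s t = W t s) (C : ℝ),
      H.IsBipartite → Measurable (Function.uncurry W) → (∀ s t, 0 ≤ W s t) →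
      (∀ s t, W s t ≤ C) → (RankLeTwo W ∨ ∃ r s, OrderedMinors W r s) →
      (∫ s, ∫ t, W s t ∂μ ∂μ) ^ H.edgeFinset.card ≤ kernelDensity μ H W hW) ∧
    (∀ (V Ω : Type) [Fintype V] [DecidableEq V] [MeasurableSpace Ω]
      (H : SimpleGraph V) [DecidableRel H.Adj] (μ : Measure Ω) [IsProbabilityMeasure μ]
      (W : Ω → Ω → ℝ) (hW : ∀ s t, W s t = W t s) (C : ℝ),
      Measurable (Function.uncurry W) → (∀ s t, 0 ≤ W s t) → (∀ s t, W s t ≤ C) →
      ((∃ f g : Ω → ℝ, ∀ s t, W s t = f s * f t + g s * g t) ∨ ∃ r, OrderedMinors W r r) →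
      (∫ s, ∫ t, W s t ∂μ ∂μ) ^ H.edgeFinset.card ≤ kernelDensity μ H W hW) ∧
    (∀ (A B Ω₁ Ω₂ : Type) [Fintype A] [Fintype B] [MeasurableSpace Ω₁] [MeasurableSpace Ω₂]
      (μ : Measure Ω₁) (ν : Measure Ω₂) [IsProbabilityMeasure μ] [IsProbabilityMeasure ν]
      (E : Finset (A × B)) (W : Ω₁ → Ω₂ → ℝ) (C : ℝ),
      Measurable (Function.uncurry W) → (∀ s t, 0 ≤ W s t) → (∀ s t, W s t ≤ C) →
      (RankLeTwo W ∨ ∃ r s, OrderedMinors W r s) →
      (∫ s, ∫ t, W s t ∂ν ∂μ) ^ E.card ≤ bipDensity μ ν E W) ∧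
    (∀ (V U : Type) [Finite V] [Finite U] [Nonempty U] (H : SimpleGraph V) (G : SimpleGraph U),
      H.IsBipartite →
      (∃ r s : U → ℝ, ∀ x x' y y', r x ≤ r x' → s y ≤ s y' → G.Adj x y' → G.Adj x' y →
        G.Adj x y ∧ G.Adj x' y') →
      edgeDensity G ^ Nat.card H.edgeSet ≤ homDensity H G)

theorem totallyPositive : TotallyPositive := by
  refine ⟨?_, ?_, ?_, ?_⟩
  · intro V Ω _ _ _ H _ μ _ W hW C hH hmeas h0 hC hcase
    obtain ⟨r, s, hm⟩ : ∃ r s, OrderedMinors W r s := hcase.elim (fun h => h.ordered h0) id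
    obtain ⟨o, ho, hor⟩ := exists_level H hH
    rw [density_eq μ H W hW ho, ← card_orient H ho]
    exact kernel_ineq μ hmeas h0 hC hm _ (orient_ne H) (Or.inl hor)
  · intro V Ω _ _ _ H _ μ _ W hW C hmeas h0 hC hcase
    obtain ⟨r, hm⟩ : ∃ r, OrderedMinors W r r :=
      hcase.elim (fun ⟨f, g, h⟩ => psd_ordered h0 h) id
    obtain ⟨o, ho⟩ := exists_level_all H
    rw [density_eq μ H W hW ho, ← card_orient H ho]
    exact kernel_ineq μ hmeas h0 hC hm _ (orient_ne H) (Or.inr ⟨rfl, hW⟩)
  · intro A B Ω₁ Ω₂ _ _ _ _ μ ν _ _ E W C hmeas h0 hC hcase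
    classical
    obtain ⟨r, s, hm⟩ : ∃ r s, OrderedMinors W r s := hcase.elim (fun h => h.ordered h0) id
    exact bip_ineq μ ν hmeas h0 hC hm E
  · intro V U _ _ _ H G hH hord
    classical
    have := Fintype.ofFinite V
    have := Fintype.ofFinite U
    obtain ⟨r, s, hrs⟩ := hord
    obtain ⟨o, ho, hor⟩ := exists_level H hH
    set W : U → U → ℝ := fun x y => if G.Adj x y then 1 else 0 with hWdef
    have hW0 : ∀ x y, 0 ≤ W x y := fun x y => by simp only [hWdef]; split_ifs <;> norm_num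
    have hm : OrderedMinors W r s := by
      intro x x' y y' hx hy
      by_cases h1 : G.Adj x y'
      · by_cases h2 : G.Adj x' y
        · obtain ⟨h3, h4⟩ := hrs x x' y y' hx hy h1 h2
          simp [hWdef, h1, h2, h3, h4]
        · have : W x' y = 0 := by simp [hWdef, h2]
          rw [this, mul_zero]; exact mul_nonneg (hW0 _ _) (hW0 _ _)
      · have : W x y' = 0 := by simp [hWdef, h1]
        rw [this, zero_mul]; exact mul_nonneg (hW0 _ _) (hW0 _ _)
    set N := Fintype.card U with hN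
    have hNpos : 0 < N := Fintype.card_pos
    set z : Fin N ≃ U := (Fintype.equivFin U).symm with hz
    have hmain := sample_ineq hW0 hm (orient H o) (orient_ne H) (Or.inl hor) hNpos z
    rw [card_orient H ho] at hmain
    have h1 : ∑ i, ∑ j, W (z i) (z j) = 2 * (Nat.card G.edgeSet : ℝ) := by
      have h2 : ∑ i, ∑ j, W (z i) (z j) = ∑ x, ∑ y, W x y := by
        rw [← Equiv.sum_comp z (fun x => ∑ y, W x y)]
        exact Finset.sum_congr rfl fun i _ => Equiv.sum_comp z (fun y => W (z i) y)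
      have h3 : ∀ x, ∑ y, W x y = (G.degree x : ℝ) := by
        intro x
        simp only [hWdef]
        rw [Finset.sum_boole, ← SimpleGraph.card_neighborFinset_eq_degree,
          SimpleGraph.neighborFinset_eq_filter]
      rw [h2, Finset.sum_congr rfl fun x _ => h3 x, ← Nat.cast_sum,
        SimpleGraph.sum_degrees_eq_twice_card_edges, Nat.card_eq_fintype_card,
        SimpleGraph.edgeFinset_card]
      push_cast; ring
    have h2 : H.edgeFinset.card = Nat.card H.edgeSet := by
      rw [Nat.card_eq_fintype_card, SimpleGraph.edgeFinset_card]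
    have h3 := hom_sum H G ho z
    rw [h1, h2] at hmain
    simp only [hWdef] at hmain
    rw [h3] at hmain
    unfold edgeDensity homDensity
    rw [Nat.card_eq_fintype_card (α := U), Nat.card_eq_fintype_card (α := V)]
    exact hmain

end Vale.Agent.P050.H753
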